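import Crest.Agent.X212.Cyc79.Ee
import Crest.Agent.X212.Gap6.Spl
import Crest.Agent.X212.Gap6.Simp
import Crest.Agent.X212.Gen6.Q
import Crest.Agent.X212.Gen6.Per
import Crest.Agent.X212.Gen6.Fl
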